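import Vale.Agent.P284.H113.Nilp
import Vale.Agent.P214.BES.Basic
import Vale.Agent.P188.QA7.Nil

/-!
# Cocompact discrete groups of affine maps with bounded linear parts
-/

open Metric Set Filter Topology
open scoped Pointwise

set_option linter.unusedSectionVars false

namespace Vale.Agent.P284.H113

universe u v

variable {V : Type u} [NormedAddCommGroup V] [NormedSpace ℂ V] [FiniteDimensional ℝ V]

/-- A group acting by affine maps `v ↦ L g v + b g`. -/
structure AffData (G : Type v) [Group G] (L : G →* (V →L[ℂ] V)) (b : G → V) (C s₀ R : ℝ) :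
    Prop where
  mul : ∀ g h, b (g * h) = L g (b h) + b g
  bdd : ∀ g, ‖L g‖ ≤ C
  pos : 0 < s₀
  sep : ∀ g h, g ≠ h → s₀ ≤ dist (b g) (b h)
  dense : ∀ v, ∃ g, ‖b g - v‖ ≤ R

variable {G : Type v} [Group G] {L : G →* (V →L[ℂ] V)} {b : G → V} {C s₀ R : ℝ}

namespace AffData

variable (H : AffData G L b C s₀ R)
include H

theorem b_one : b 1 = 0 := by
  have h := H.mul 1 1
  rw [mul_one, map_one] at h
  simpa using h

theorem C_nonneg : 0 ≤ C := (norm_nonneg _).trans (H.bdd 1)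

theorem R_nonneg : 0 ≤ R := by
  obtain ⟨g, hg⟩ := H.dense 0
  exact (norm_nonneg _).trans hg

theorem inj {g h : G} (hgh : b g = b h) : g = h := by
  by_contra hne
  have := H.sep g h hne
  rw [hgh, dist_self] at this
  linarith [H.pos]

/-- counting -/
theorem card_le (T : Finset G) {r : ℝ} (hr : 0 ≤ r) (hT : ∀ g ∈ T, ‖b g‖ ≤ r) :
    (T.card : ℝ) ≤ (2 * (r / s₀) + 1) ^ Module.finrank ℝ V := by
  classical
  have hpos := H.pos
  have h1 : (T.image b).card = T.card := Finset.card_image_of_injective T fun g h => H.inj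
  rw [← h1]
  apply P214.BES.card_le_of_sep (T.image b) 0 hpos (by positivity)
  · intro c hc
    obtain ⟨g, hg, rfl⟩ := Finset.mem_image.1 hc
    rw [dist_zero_right, div_mul_cancel₀ _ hpos.ne']
    exact hT g hg
  · intro c hc d hd hcd
    obtain ⟨g, hg, rfl⟩ := Finset.mem_image.1 hc
    obtain ⟨h, hh, rfl⟩ := Finset.mem_image.1 hd
    exact H.sep g h fun e => hcd (congrArg b e)

theorem finite_ball (r : ℝ) : {g : G | ‖b g‖ ≤ r}.Finite := by
  by_contra hinf
  have hr : 0 ≤ r := by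
    obtain ⟨g, hg⟩ := (show {g : G | ‖b g‖ ≤ r}.Infinite from hinf).nonempty
    exact (norm_nonneg _).trans hg
  obtain ⟨m, hm⟩ := exists_nat_gt ((2 * (r / s₀) + 1) ^ Module.finrank ℝ V)
  obtain ⟨T, hT, hTm⟩ := (show {g : G | ‖b g‖ ≤ r}.Infinite from hinf).exists_subset_card_eq m
  have := H.card_le T hr fun g hg => hT hg
  rw [hTm] at this
  linarith

theorem b_inv_mul (g h : G) : b (h⁻¹ * g) = L h⁻¹ (b g - b h) := by
  have h1 := H.mul h⁻¹ g
  have h2 := H.mul h⁻¹ h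
  rw [inv_mul_cancel, H.b_one] at h2
  have h3 : b h⁻¹ = - L h⁻¹ (b h) := by
    rw [eq_neg_iff_add_eq_zero, add_comm]; exact h2.symm
  rw [h1, h3, map_sub]
  abel

theorem fg : Group.FG G := by
  have hC := H.C_nonneg
  have hR := H.R_nonneg
  set S : Set G := {g | ‖b g‖ ≤ C * (2 * R + 2)} with hS
  have hSf : S.Finite := H.finite_ball _
  rw [Group.fg_iff]
  refine ⟨S, ?_, hSf⟩
  rw [eq_top_iff]
  intro g₀ _
  by_contra hg₀
  set K := Subgroup.closure S with hK
  let U : Set V := ⋃ h ∈ {h : G | h ∈ K}, ball (b h) (R + 1)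
  let U' : Set V := ⋃ g ∈ {g : G | g ∉ K}, ball (b g) (R + 1)
  have hU : IsOpen U := isOpen_biUnion fun _ _ => isOpen_ball
  have hU' : IsOpen U' := isOpen_biUnion fun _ _ => isOpen_ball
  have hcov : (univ : Set V) ⊆ U ∪ U' := by
    intro v _
    obtain ⟨g, hg⟩ := H.dense v
    have hv : v ∈ ball (b g) (R + 1) := by
      rw [mem_ball, dist_comm, dist_eq_norm]
      linarith
    by_cases hgK : g ∈ K
    · left
      exact mem_iUnion₂.2 ⟨g, hgK, hv⟩
    · right
      exact mem_iUnion₂.2 ⟨g, hgK, hv⟩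
  have hdisj : Disjoint U U' := by
    rw [Set.disjoint_left]
    rintro v hv hv'
    obtain ⟨h, hh, hv⟩ := mem_iUnion₂.1 hv
    obtain ⟨g, hg, hv'⟩ := mem_iUnion₂.1 hv'
    have hh' : h ∈ K := hh
    have hg' : g ∉ K := hg
    apply hg'
    have h1 : ‖b g - b h‖ ≤ 2 * R + 2 := by
      rw [← dist_eq_norm]
      have := dist_triangle_left (b g) (b h) v
      have h2 := mem_ball.1 hv
      have h3 := mem_ball.1 hv'
      linarith
    have h2 : h⁻¹ * g ∈ S := by
      show ‖b (h⁻¹ * g)‖ ≤ _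
      rw [H.b_inv_mul]
      exact ((L h⁻¹).le_of_opNorm_le (H.bdd _) _).trans (mul_le_mul_of_nonneg_left h1 hC)
    have h3 : g = h * (h⁻¹ * g) := by group
    rw [h3]
    exact K.mul_mem hh' (Subgroup.subset_closure h2)
  have hne : (U ∩ U').Nonempty := by
    have h1 := isPreconnected_univ (α := V) U U' hU hU' hcov
      ⟨b 1, trivial, mem_iUnion₂.2 ⟨1, K.one_mem, mem_ball_self (by linarith)⟩⟩
      ⟨b g₀, trivial, mem_iUnion₂.2 ⟨g₀, hg₀, mem_ball_self (by linarith)⟩⟩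
    simpa using h1
  exact hne.ne_empty (Set.disjoint_iff_inter_eq_empty.1 hdisj)

theorem growth : P188.H796.GrowthLE G (Module.finrank ℝ V) := by
  intro F hF
  have hC := H.C_nonneg
  obtain ⟨β, hβ⟩ : ∃ β : ℝ, ∀ s ∈ F, ‖b s‖ ≤ β := by
    obtain ⟨β, hβ⟩ := (hF.image fun s => ‖b s‖).bddAbove
    exact ⟨β, fun s hs => hβ ⟨s, hs, rfl⟩⟩
  set β' := max β 0 with hβ'
  have hβ0 : 0 ≤ β' := le_max_right _ _
  have hlen : ∀ m : ℕ, ∀ g ∈ F ^ m, ‖b g‖ ≤ m * (C * β') := by
    intro m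
    induction m with
    | zero =>
      intro g hg
      rw [pow_zero, Set.mem_one] at hg
      rw [hg, H.b_one]
      simp
    | succ m ih =>
      intro g hg
      rw [pow_succ] at hg
      obtain ⟨h, hh, s, hs, rfl⟩ := hg
      show ‖b (h * s)‖ ≤ _
      rw [H.mul]
      refine (norm_add_le _ _).trans ?_
      have h1 : ‖L h (b s)‖ ≤ C * β' := ((L h).le_of_opNorm_le (H.bdd h) _).trans
        (mul_le_mul_of_nonneg_left ((hβ s hs).trans (le_max_left _ _)) hC)
      have h2 := ih h hh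
      push_cast
      linarith
  have hpos := H.pos
  obtain ⟨M, hM⟩ := exists_nat_ge (2 * (C * β' / s₀) + 1)
  refine ⟨M ^ Module.finrank ℝ V, fun m => ?_⟩
  have hfin : (F ^ m).Finite := P188.H796.finite_pow hF m
  have h1 := H.card_le hfin.toFinset (r := m * (C * β')) (by positivity)
    (fun g hg => hlen m g (hfin.mem_toFinset.1 hg))
  have h2 : (F ^ m).ncard = hfin.toFinset.card := Set.ncard_eq_toFinset_card _ hfin
  rw [h2]
  have h3 : (2 * (m * (C * β') / s₀) + 1) ≤ (M : ℝ) * (m + 1) := by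
    have e1 : 0 ≤ C * β' / s₀ := by positivity
    have e2 : (m : ℝ) * (C * β') / s₀ = m * (C * β' / s₀) := by ring
    have e3 : (0 : ℝ) ≤ m := Nat.cast_nonneg m
    rw [e2]
    nlinarith
  have h4 : (hfin.toFinset.card : ℝ) ≤ (M : ℝ) ^ Module.finrank ℝ V *
      ((m : ℝ) + 1) ^ Module.finrank ℝ V := by
    rw [← mul_pow]
    exact h1.trans (pow_le_pow_left₀ (by positivity) h3 _)
  exact_mod_cast h4

/-- **Bieberbach.** -/
theorem exists_translations : ∃ N : Subgroup G, N.FiniteIndex ∧ (∀ g ∈ N, L g = 1) ∧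
    ∃ R' : ℝ, ∀ v, ∃ g ∈ N, ‖b g - v‖ ≤ R' := by
  have hfg := H.fg
  obtain ⟨N, hNn, hNf, hNil, -⟩ := P188.QA7.stNil _ G H.growth
  have hfq : Finite (G ⧸ N) := Subgroup.finite_quotient_of_finiteIndex
  obtain ⟨β, hβ⟩ : ∃ β : ℝ, ∀ q : G ⧸ N, ‖b q.out‖ ≤ β := by
    obtain ⟨β, hβ⟩ := (Set.finite_range fun q : G ⧸ N => ‖b q.out‖).bddAbove
    exact ⟨β, fun q => hβ ⟨q, rfl⟩⟩
  have hR' : ∀ v, ∃ g : N, ‖b (g : G) - v‖ ≤ R + C * β := by
    intro v
    obtain ⟨g, hg⟩ := H.dense v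
    obtain ⟨t, ht⟩ : ∃ t : G, t = ((g : G ⧸ N)).out := ⟨_, rfl⟩
    have h1 : g⁻¹ * t ∈ N := by
      rw [← QuotientGroup.eq, ht, QuotientGroup.out_eq']
    have h2 : g * t⁻¹ ∈ N := by
      have h3 := hNn.conj_mem _ (N.inv_mem h1) g
      have h4 : g * (g⁻¹ * t)⁻¹ * g⁻¹ = g * t⁻¹ := by group
      rwa [h4] at h3
    refine ⟨⟨g * t⁻¹, h2⟩, ?_⟩
    have h3 : b g = L (g * t⁻¹) (b t) + b (g * t⁻¹) := by
      rw [← H.mul]; congr 1; group
    have h4 : b (g * t⁻¹) - v = (b g - v) - L (g * t⁻¹) (b t) := by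
      rw [h3]; abel
    show ‖b (g * t⁻¹) - v‖ ≤ _
    rw [h4]
    refine (norm_sub_le _ _).trans (add_le_add hg ?_)
    refine ((L _).le_of_opNorm_le (H.bdd _) _).trans ?_
    apply mul_le_mul_of_nonneg_left _ H.C_nonneg
    rw [ht]
    exact hβ _
  have key := lin_trivial (N := N) (L.comp N.subtype) (fun g => b (g : G))
    (fun g h => H.mul g h) (C := C) (fun g => H.bdd g) hR'
  refine ⟨N, hNf, fun g hg => key ⟨g, hg⟩, R + C * β, fun v => ?_⟩
  obtain ⟨g, hg⟩ := hR' v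
  exact ⟨g, g.2, hg⟩

theorem exists_lattice : ∃ N : Subgroup G, N.FiniteIndex ∧ (∀ g ∈ N, ∀ h ∈ N, g * h = h * g) ∧
    ∃ B : Module.Basis (Fin (Module.finrank ℝ V)) ℝ V, ∀ i, ∃ g ∈ N, L g = 1 ∧ b g = B i := by
  obtain ⟨N, hNf, hN, R', hR'⟩ := H.exists_translations
  refine ⟨N, hNf, ?_, ?_⟩
  · intro g hg h hh
    apply H.inj
    rw [H.mul, H.mul, hN g hg, hN h hh]
    show b h + b g = b g + b h
    abel
  · set S : Set V := {v | ∃ g ∈ N, b g = v} with hS
    have hspan : (⊤ : Submodule ℝ V) ≤ Submodule.span ℝ S := by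
      by_contra hcon
      have hlt : Submodule.span ℝ S < ⊤ := lt_of_le_not_ge le_top hcon
      obtain ⟨f, hf0, hf⟩ := Submodule.exists_le_ker_of_lt_top _ hlt
      let f' : V →L[ℝ] ℝ := LinearMap.toContinuousLinearMap f
      apply hf0
      have hz : ∀ v, f' v = 0 := by
        intro v
        by_contra hv
        obtain ⟨m, hm⟩ := exists_nat_gt (‖f'‖ * R' / |f' v|)
        obtain ⟨g, hg, hgv⟩ := hR' ((m : ℝ) • v)
        have h1 : f' (b g) = 0 := hf (Submodule.subset_span ⟨g, hg, rfl⟩)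
        have h2 : |f' (b g - (m : ℝ) • v)| ≤ ‖f'‖ * R' :=
          (f'.le_opNorm _).trans (mul_le_mul_of_nonneg_left hgv (norm_nonneg _))
        rw [map_sub, h1, zero_sub, abs_neg, map_smul, smul_eq_mul, abs_mul, Nat.abs_cast] at h2
        rw [div_lt_iff₀ (abs_pos.2 hv)] at hm
        linarith
      ext v
      exact hz v
    let B₀ := Module.Basis.ofSpan hspan
    have hfin : Fintype ((linearIndepOn_empty ℝ (id : V → V)).extend (empty_subset S)) :=
      Module.Basis.fintypeIndexOfRankLtAleph0 B₀ (Module.rank_lt_aleph0 ℝ V)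
    have hcard : Fintype.card ((linearIndepOn_empty ℝ (id : V → V)).extend (empty_subset S)) =
        Module.finrank ℝ V := (Module.finrank_eq_card_basis B₀).symm
    refine ⟨B₀.reindex (Fintype.equivFinOfCardEq hcard), fun i => ?_⟩
    have h1 : B₀.reindex (Fintype.equivFinOfCardEq hcard) i ∈ S := by
      rw [Module.Basis.reindex_apply]
      exact Module.Basis.ofSpan_subset hspan ⟨_, rfl⟩
    obtain ⟨g, hg, hgi⟩ := h1
    exact ⟨g, hg, hN g hg, hgi⟩

end AffData

end Vale.Agent.P284.H113
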