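import Vale.Agent.P284.H113.Affine
import Vale.Agent.P284.H113.Group

/-!
# The main theorem
-/

open Metric Set Filter Topology Uniformity
open scoped Manifold ContDiff

set_option linter.unusedSectionVars false

namespace Vale.Agent.P284.H113

variable {E : Type*} [NormedAddCommGroup E] [NormedSpace ℂ E] [FiniteDimensional ℂ E] {X : Type*} [UniformSpace X] [CompactSpace X] [T2Space X] [ConnectedSpace X]
  [ChartedSpace E X] [IsManifold 𝓘(ℂ, E) ω X]

theorem mfderiv_eq {E' : Type*} [NormedAddCommGroup E'] [NormedSpace ℂ E'] [FiniteDimensional ℂ E'] {F : E' → X} (hF : MDifferentiable 𝓘(ℂ, E') 𝓘(ℂ, E) F)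
    (z : E') : (mfderiv 𝓘(ℂ, E') 𝓘(ℂ, E) F z : E' → E) =
      (fderiv ℂ (chartAt E (F z) ∘ F) z : E' → E) := by
  have h1 : mfderiv 𝓘(ℂ, E') 𝓘(ℂ, E) F z =
      fderivWithin ℂ (writtenInExtChartAt 𝓘(ℂ, E') 𝓘(ℂ, E) z F) (range 𝓘(ℂ, E'))
        ((extChartAt 𝓘(ℂ, E') z) z) := (hF z).mfderiv
  rw [h1]
  simp only [mfld_simps, fderivWithin_univ]
  rfl

theorem cocompact {F : E → X} (hc : IsCoveringMap F) (hs : Function.Surjective F) :
    ∃ R : ℝ, ∀ p, ∃ z, ‖z‖ ≤ R ∧ F z = p := by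
  obtain ⟨t, ht⟩ := isCompact_univ.elim_finite_subcover (fun k : ℕ => F '' ball 0 k)
    (fun k => hc.isOpenMap _ isOpen_ball) (by
      intro p _
      obtain ⟨z, rfl⟩ := hs p
      obtain ⟨k, hk⟩ := exists_nat_gt ‖z‖
      exact mem_iUnion.2 ⟨k, z, by simpa using hk, rfl⟩)
  refine ⟨∑ k ∈ t, (k : ℝ), fun p => ?_⟩
  obtain ⟨k, hk, z, hz, rfl⟩ := mem_iUnion₂.1 (ht (mem_univ p))
  refine ⟨z, ?_, rfl⟩
  have h1 : ‖z‖ < k := by simpa using hz
  exact h1.le.trans (Finset.single_le_sum (f := fun k : ℕ => (k : ℝ))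
    (fun i _ => Nat.cast_nonneg i) hk)

/-- The case of equal dimensions. -/
theorem main_eq (hK : CanonicalPsef E X) {F : E → X}
    (hF : MDifferentiable 𝓘(ℂ, E) 𝓘(ℂ, E) F) (hu : UniformContinuous F)
    {e : OpenPartialHomeomorph X E} (he : e ∈ atlas E X) {z₀ : E}
    (hz₀ : F z₀ ∈ e.source) (hd : (fderiv ℂ (e ∘ F) z₀).det ≠ 0) :
    IsCoveringMap F ∧ Function.Surjective F ∧
    (∃ B : Module.Basis (Fin (Module.finrank ℝ E)) ℝ E, ∀ i z, F (z + B i) = F z) ∧
    ∀ x : X, ∃ A : Subgroup (FundamentalGroup X x), A.FiniteIndex ∧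
      ∀ a ∈ A, ∀ b ∈ A, a * b = b * a := by
  obtain ⟨h, hh⟩ := hK
  obtain ⟨M, hM⟩ := wt_bdd hh hF hu
  obtain ⟨y, hy⟩ := wt_pos hh hF he hz₀ hd
  have hw : ∀ z, wt h F z = wt h F y := fun z => wt_const hh hF hM z y
  obtain ⟨s₀, hs₀, hinj, hsec, C, hC0, hC⟩ := global_unif hh hF hu hy hw
  obtain ⟨hcov, hsurj⟩ := covering_of_unif hu.continuous hs₀ hinj hsec
  obtain ⟨R₀, hR₀⟩ := cocompact hcov hsurj
  have hdk := fun g : DeckG F => deck_diff hF hC0 hC g
  have haff : ∀ (g : DeckG F) v, (g : Equiv.Perm E) v = (g : Equiv.Perm E) 0 +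
      fderiv ℂ (g : Equiv.Perm E) 0 v := fun g v => affine_of_bdd (hdk g).1 (hdk g).2 v
  let L : DeckG F →* (E →L[ℂ] E) :=
    { toFun := fun g => fderiv ℂ (g : Equiv.Perm E) 0
      map_one' := by
        show fderiv ℂ (fun x : E => x) 0 = 1
        rw [fderiv_fun_id]
        rfl
      map_mul' := by
        intro g k
        ext1 v
        have h1 := haff (g * k) v
        have h2 : ((g * k : DeckG F) : Equiv.Perm E) v =
          (g : Equiv.Perm E) ((k : Equiv.Perm E) v) := rfl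
        have h3 : ((g * k : DeckG F) : Equiv.Perm E) 0 =
          (g : Equiv.Perm E) ((k : Equiv.Perm E) 0) := rfl
        rw [h2, h3, haff g ((k : Equiv.Perm E) v), haff g ((k : Equiv.Perm E) 0),
          haff k v, map_add] at h1
        show fderiv ℂ ((g * k : DeckG F) : Equiv.Perm E) 0 v =
          fderiv ℂ (g : Equiv.Perm E) 0 (fderiv ℂ (k : Equiv.Perm E) 0 v)
        have h4 : (g : Equiv.Perm E) 0 + (fderiv ℂ (g : Equiv.Perm E) 0
            ((k : Equiv.Perm E) 0) + fderiv ℂ (g : Equiv.Perm E) 0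
              (fderiv ℂ (k : Equiv.Perm E) 0 v)) =
            (g : Equiv.Perm E) 0 + (fderiv ℂ (g : Equiv.Perm E) 0
            ((k : Equiv.Perm E) 0) + fderiv ℂ ((g * k : DeckG F) : Equiv.Perm E) 0 v) := by
          rw [h1]; abel
        exact (add_left_cancel (add_left_cancel h4)).symm }
  have H : AffData (DeckG F) L (fun g => (g : Equiv.Perm E) 0) (C * C) s₀
      (C * C * R₀) := by
    refine ⟨?_, fun g => (hdk g).2 0, hs₀, ?_, ?_⟩
    · intro g k
      have h1 : ((g * k : DeckG F) : Equiv.Perm E) 0 =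
          (g : Equiv.Perm E) ((k : Equiv.Perm E) 0) := rfl
      show ((g * k : DeckG F) : Equiv.Perm E) 0 = _
      rw [h1, haff g ((k : Equiv.Perm E) 0), add_comm]
      rfl
    · intro g k hgk
      by_contra hlt
      push Not at hlt
      apply hgk
      apply deck_ext hcov (x := 0)
      apply hinj ((k : Equiv.Perm E) 0) (mem_ball.2 hlt) (mem_ball_self hs₀)
      exact (deck_apply g 0).trans (deck_apply k 0).symm
    · intro v
      obtain ⟨z', hz', hFz'⟩ := hR₀ (F v)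
      obtain ⟨g, hg⟩ := exists_deck hcov hFz'
      refine ⟨g, ?_⟩
      have h1 : (g : Equiv.Perm E) 0 - v = - fderiv ℂ (g : Equiv.Perm E) 0 z' := by
        rw [← hg, haff g z']
        abel
      rw [h1, norm_neg]
      exact ((fderiv ℂ (g : Equiv.Perm E) 0).le_of_opNorm_le ((hdk g).2 0) _).trans
        (mul_le_mul_of_nonneg_left hz' (by positivity))
  obtain ⟨N, hNf, hNab, B, hB⟩ := H.exists_lattice
  refine ⟨hcov, hsurj, ⟨B, fun i z => ?_⟩, fun x =>
    virtAb_of_deck hcov hsurj hs₀ hinj hNf hNab x⟩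
  obtain ⟨g, -, hg1, hg2⟩ := hB i
  rw [← hg2]
  have h1 : (g : Equiv.Perm E) z = z + (g : Equiv.Perm E) 0 := by
    have h2 : fderiv ℂ (g : Equiv.Perm E) 0 = 1 := hg1
    rw [haff g z, h2, add_comm]
    rfl
  show F (z + (g : Equiv.Perm E) 0) = F z
  rw [← h1]
  exact deck_apply g z

/-- **Main theorem.** -/
theorem main {E' : Type*} [NormedAddCommGroup E'] [NormedSpace ℂ E'] [FiniteDimensional ℂ E'] (hK : CanonicalPsef E X) {F : E' → X}
    (hF : MDifferentiable 𝓘(ℂ, E') 𝓘(ℂ, E) F) (hu : UniformContinuous F)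
    (hs : ∃ z, Function.Surjective (mfderiv 𝓘(ℂ, E') 𝓘(ℂ, E) F z)) :
    (∃ (z₀ : E') (j : E →L[ℂ] E') (B : Module.Basis (Fin (Module.finrank ℝ E)) ℝ E),
      Function.Injective j ∧ Function.Surjective (fun w => F (z₀ + j w)) ∧
      IsCoveringMap (fun w => F (z₀ + j w)) ∧ ∀ i w, F (z₀ + j (w + B i)) = F (z₀ + j w)) ∧
    ∀ x : X, ∃ A : Subgroup (FundamentalGroup X x), A.FiniteIndex ∧
      ∀ a ∈ A, ∀ b ∈ A, a * b = b * a := by
  obtain ⟨z₀, hz₀⟩ := hs
  rw [mfderiv_eq hF] at hz₀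
  set e := chartAt E (F z₀) with he
  have hea := chart_mem_atlas E (F z₀)
  rw [← he] at hea
  have hze : F z₀ ∈ e.source := mem_chart_source E (F z₀)
  set D : E' →L[ℂ] E := fderiv ℂ (e ∘ F) z₀ with hD
  obtain ⟨j₀, hj₀⟩ := (D : E' →ₗ[ℂ] E).exists_rightInverse_of_surjective
    (LinearMap.range_eq_top.2 hz₀)
  let j : E →L[ℂ] E' := LinearMap.toContinuousLinearMap j₀
  have hj : ∀ w, D (j w) = w := fun w => LinearMap.congr_fun hj₀ w
  have hj' : Function.Injective j := fun a b hab => by rw [← hj a, hab, hj b]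
  set F' : E → X := fun w => F (z₀ + j w) with hF'
  have haffd : Differentiable ℂ fun w : E => z₀ + j w := by fun_prop
  have hF'd : MDifferentiable 𝓘(ℂ, E) 𝓘(ℂ, E) F' := by
    intro w
    exact (hF (z₀ + j w)).comp w (haffd w).mdifferentiableAt
  have hF'u : UniformContinuous F' := by
    apply hu.comp
    exact uniformContinuous_const.add j.uniformContinuous
  have hF'0 : F' 0 = F z₀ := by
    show F (z₀ + j 0) = F z₀
    rw [map_zero, add_zero]
  have hfd : fderiv ℂ (e ∘ F') 0 = 1 := by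
    have h1 : HasFDerivAt (e ∘ F) D (z₀ + j 0) := by
      rw [map_zero, add_zero]
      exact (differentiableAt_chart hF hea hze).hasFDerivAt
    have h2 : HasFDerivAt (fun w : E => z₀ + j w) j 0 := j.hasFDerivAt.const_add z₀
    have h3 := h1.comp 0 h2
    have h4 : fderiv ℂ (e ∘ F') 0 = D.comp j := h3.fderiv
    rw [h4]
    ext1 w
    exact hj w
  have hdet : (fderiv ℂ (e ∘ F') 0).det ≠ 0 := by
    rw [hfd]
    show LinearMap.det (LinearMap.id : E →ₗ[ℂ] E) ≠ 0
    rw [LinearMap.det_id]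
    exact one_ne_zero
  obtain ⟨h1, h2, ⟨B, hB⟩, h3⟩ := main_eq hK hF'd hF'u hea (z₀ := 0)
    (by rw [hF'0]; exact hze) hdet
  exact ⟨⟨z₀, j, B, hj', h2, h1, hB⟩, h3⟩

end Vale.Agent.P284.H113
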